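import Crest.Agent.Lib.BoolCube.Hyper

/-!
# Influence lower bound for vertex-symmetric functions: the core inequality
-/

set_option autoImplicit false

namespace Crest.Agent.R56

open Finset Crest.FinProb Crest.Agent.Lib.BoolCube

variable {ι : Type*} [Fintype ι] [DecidableEq ι] {p : ℝ}

/-- the level weight -/
noncomputable def wt (p : ℝ) (t : ℕ) : ℝ := (t : ℝ) * (sig p / 2) ^ (t - 1)

lemma wt_nonneg (h0 : 0 < p) (h1 : p < 1) (t : ℕ) : 0 ≤ wt p t := by
  have := sig_pos h0 h1
  unfold wt; positivity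

lemma wt_le_one (h0 : 0 < p) (h1 : p < 1) (t : ℕ) : wt p t ≤ 1 := by
  have hs := sig_pos h0 h1
  have hh := sig_le_half h0 h1
  unfold wt
  rcases t with _ | t
  · simp
  · simp only [Nat.add_sub_cancel]
    have h2 : (sig p / 2) ^ t ≤ (1 / 2 : ℝ) ^ t := pow_le_pow_left₀ (by positivity) (by linarith) t
    have h3 : ((t + 1 : ℕ) : ℝ) ≤ 2 ^ t := by
      have : t + 1 ≤ 2 ^ t := Nat.lt_two_pow_self
      exact_mod_cast this
    calc ((t + 1 : ℕ) : ℝ) * (sig p / 2) ^ t ≤ 2 ^ t * (1 / 2 : ℝ) ^ t :=
          mul_le_mul h3 h2 (by positivity) (by positivity)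
      _ = 1 := by rw [← mul_pow]; norm_num

lemma wt_ge (h0 : 0 < p) (h1 : p < 1) {t k : ℕ} (ht : 1 ≤ t) (htk : t ≤ k) :
    (sig p / 2) ^ (k - 1) ≤ wt p t := by
  have hs := sig_pos h0 h1
  have hh := sig_le_half h0 h1
  unfold wt
  have h2 : (sig p / 2) ^ (k - 1) ≤ (sig p / 2) ^ (t - 1) :=
    pow_le_pow_of_le_one (by positivity) (by linarith) (by omega)
  have h3 : (1 : ℝ) ≤ t := by exact_mod_cast ht
  have h4 : 0 ≤ (sig p / 2) ^ (t - 1) := by positivity
  nlinarith

/-- KKL-type bound for a Boolean function all of whose influences are relatively small. -/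
lemma kkl (h0 : 0 < p) (h1 : p < 1) (g : (ι → Bool) → ℝ) (hg : ∀ x, g x = 0 ∨ g x = 1)
    {s : ℝ} (hs : 0 < s) (hsm : ∀ e, s ^ 3 * infl p g e ≤ ∑ e, infl p g e) :
    ∑ T : Finset ι, wt p T.card * coef p g T ^ 2 ≤ (∑ e, infl p g e) / s := by
  set I := ∑ e, infl p g e with hI
  have hsg := sig_pos h0 h1
  have hh := sig_le_half h0 h1
  rcases le_total I s with hIs | hIs
  · have e1 : ∑ T : Finset ι, wt p T.card * coef p g T ^ 2 =
        ∑ e, sig p ^ 2 * ∑ T : Finset ι, (sig p / 2) ^ T.card * coef p (D e g) T ^ 2 := by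
      simp only [wt, mul_assoc]
      rw [sum_card_weight]
      exact Finset.sum_congr rfl fun e _ => sum_mem_coef_sq h0 h1 g e (fun t => (sig p / 2) ^ t)
    rw [e1, hI, Finset.sum_div]
    refine Finset.sum_le_sum fun e _ => ?_
    have hD : ∀ x, D e g x ^ 3 = D e g x := by
      intro x
      unfold D
      rcases hg (Function.update x e true) with a | a <;>
        rcases hg (Function.update x e false) with b | b <;> rw [a, b] <;> norm_num
    have hn := noisy_sq_le h0 h1 (D e g) hD
    change _ ≤ infl p g e ^ 3 at hn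
    set N := ∑ T : Finset ι, (sig p / 2) ^ T.card * coef p (D e g) T ^ 2 with hN
    have hN0 : 0 ≤ N := Finset.sum_nonneg fun T _ => by positivity
    have hα := infl_nonneg h0.le h1.le g e
    set α := infl p g e with hαdef
    have h2 : s ^ 2 * α ≤ 1 := by
      have : s * (s ^ 2 * α) ≤ s * 1 := by
        have := hsm e
        rw [← hαdef] at this
        nlinarith
      exact le_of_mul_le_mul_left this hs
    have h3 : N ≤ α / s := by
      apply le_of_sq_le_sq _ (by positivity)
      refine hn.trans ?_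
      rw [div_pow, le_div_iff₀ (by positivity)]
      have : 0 ≤ α ^ 2 := sq_nonneg _
      nlinarith
    have h4 : sig p ^ 2 ≤ 1 := by nlinarith
    calc sig p ^ 2 * N ≤ 1 * N := mul_le_mul_of_nonneg_right h4 hN0
      _ ≤ α / s := by rw [one_mul]; exact h3
  · have e1 : ∑ T : Finset ι, wt p T.card * coef p g T ^ 2 ≤ ∑ T : Finset ι, coef p g T ^ 2 :=
      Finset.sum_le_sum fun T _ => by
        have := wt_le_one h0 h1 T.card
        have h2 := sq_nonneg (coef p g T)
        nlinarith
    rw [← parseval h0 h1] at e1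
    have e2 : E p (fun x => g x ^ 2) ≤ E p (fun _ : ι → Bool => (1 : ℝ)) :=
      E_mono h0.le h1.le fun x => by rcases hg x with a | a <;> rw [a] <;> norm_num
    rw [E_const] at e2
    have e3 : 1 ≤ I / s := by rw [le_div_iff₀ hs]; linarith
    linarith

variable {V : Type*} [Fintype V] [DecidableEq V]

/-- the slots touching the vertex set `U` -/
def touch (vs : ι → Finset V) (U : Finset V) : Finset ι := univ.filter fun e => ∃ u ∈ U, u ∈ vs e

omit [DecidableEq ι] [Fintype V] in
lemma mem_touch {vs : ι → Finset V} {U : Finset V} {e : ι} :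
    e ∈ touch vs U ↔ ∃ u ∈ U, u ∈ vs e := by simp [touch]

section sym
variable {vs : ι → Finset V} {act : Equiv.Perm V → Equiv.Perm ι} {r : ℕ}

omit [Fintype V] in
lemma restr_symm (hinj : Function.Injective vs) (hact : ∀ σ e, vs (act σ e) = (vs e).image σ)
    (F : (ι → Bool) → ℝ) (hF : ∀ σ x, F (x ∘ act σ) = F x) {U : Finset V} {u u' : V}
    (hu : u ∈ U) (hu' : u' ∈ U) (z y : ι → Bool) :
    restr (touch vs U) F z (y ∘ act (Equiv.swap u u')) = restr (touch vs U) F z y := by
  unfold restr
  rw [← hF (Equiv.swap u u') ((touch vs U).piecewise y z)]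
  congr 1
  funext e
  by_cases he : e ∈ touch vs U
  · have he' : act (Equiv.swap u u') e ∈ touch vs U := by
      obtain ⟨w, hwU, hw⟩ := mem_touch.1 he
      refine mem_touch.2 ⟨Equiv.swap u u' w, ?_, ?_⟩
      · rw [Equiv.swap_apply_def]; split_ifs <;> assumption
      · rw [hact]; exact Finset.mem_image_of_mem _ hw
    simp [Finset.piecewise, he, he']
  · have hfix : act (Equiv.swap u u') e = e := by
      apply hinj
      rw [hact]
      have : ∀ w ∈ vs e, Equiv.swap u u' w = w := by
        intro w hw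
        apply Equiv.swap_apply_of_ne_of_ne
        · rintro rfl; exact he (mem_touch.2 ⟨_, hu, hw⟩)
        · rintro rfl; exact he (mem_touch.2 ⟨_, hu', hw⟩)
      rw [Finset.image_congr (g := id) (fun w hw => this w hw), Finset.image_id]
    simp [Finset.piecewise, he, hfix]

omit [Fintype V] in
lemma small_infl (h0 : 0 < p) (h1 : p < 1) (hinj : Function.Injective vs)
    (hcard : ∀ e, (vs e).card = r) (hact : ∀ σ e, vs (act σ e) = (vs e).image σ)
    (F : (ι → Bool) → ℝ) (hF : ∀ σ x, F (x ∘ act σ) = F x) (U : Finset V) (z : ι → Bool) (e : ι) :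
    ((U.card : ℝ) - r) * infl p (restr (touch vs U) F z) e
      ≤ ∑ e, infl p (restr (touch vs U) F z) e := by
  set g := restr (touch vs U) F z with hg
  have hnn : ∀ e, 0 ≤ infl p g e := infl_nonneg h0.le h1.le g
  by_cases he : e ∈ touch vs U
  · obtain ⟨u, huU, hu⟩ := mem_touch.1 he
    have hinj2 : Set.InjOn (fun u' => act (Equiv.swap u u') e) ↑(U \ vs e) := by
      intro a ha b hb hab
      simp only [Finset.coe_sdiff, Set.mem_sdiff, Finset.mem_coe] at ha hb
      have h2 : a ∈ vs (act (Equiv.swap u a) e) := by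
        rw [hact]; exact Finset.mem_image.2 ⟨u, hu, by simp⟩
      simp only at hab
      rw [hab, hact] at h2
      obtain ⟨w, hw, hwa⟩ := Finset.mem_image.1 h2
      rw [Equiv.swap_apply_def] at hwa
      split_ifs at hwa with c1 c2
      · exact hwa.symm
      · exact absurd (c2 ▸ hw) hb.2
      · exact absurd (hwa ▸ hw) ha.2
    have e1 : ∑ u' ∈ U \ vs e, infl p g (act (Equiv.swap u u') e) ≤ ∑ e, infl p g e := by
      rw [← Finset.sum_image (f := fun e => infl p g e) hinj2]
      exact Finset.sum_le_sum_of_subset_of_nonneg (Finset.subset_univ _) fun e _ _ => hnn e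
    have e2 : ∑ u' ∈ U \ vs e, infl p g (act (Equiv.swap u u') e) =
        ((U \ vs e).card : ℝ) * infl p g e := by
      rw [← nsmul_eq_mul, ← Finset.sum_const]
      refine Finset.sum_congr rfl fun u' hu' => ?_
      exact infl_perm _ g
        (fun y => restr_symm hinj hact F hF huU (Finset.mem_sdiff.1 hu').1 z y) e
    have e3 : (U.card : ℝ) - r ≤ (U \ vs e).card := by
      have := Finset.le_card_sdiff (vs e) U
      rw [hcard] at this
      have h2 : U.card ≤ (U \ vs e).card + r := by omega
      have h3 : (U.card : ℝ) ≤ (U \ vs e).card + r := by exact_mod_cast h2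
      linarith
    calc _ ≤ ((U \ vs e).card : ℝ) * infl p g e := mul_le_mul_of_nonneg_right e3 (hnn e)
      _ ≤ _ := by rw [← e2]; exact e1
  · have : infl p g e = 0 := by simp [infl, hg, D_restr_of_notMem he, E_const]
    rw [this, mul_zero]
    exact Finset.sum_nonneg fun e _ => hnn e

omit [Fintype V] in
lemma per_set (h0 : 0 < p) (h1 : p < 1) (hinj : Function.Injective vs)
    (hcard : ∀ e, (vs e).card = r) (hact : ∀ σ e, vs (act σ e) = (vs e).image σ)
    (F : (ι → Bool) → ℝ) (hF01 : ∀ x, F x = 0 ∨ F x = 1) (hF : ∀ σ x, F (x ∘ act σ) = F x)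
    (U : Finset V) {s : ℝ} (hs : 0 < s) (hsU : s ^ 3 ≤ (U.card : ℝ) - r) :
    ∑ S : Finset ι, wt p (S ∩ touch vs U).card * coef p F S ^ 2
      ≤ (∑ e ∈ touch vs U, infl p F e) / s := by
  rw [← E_weight_restr h0 h1 (touch vs U) F (fun T => wt p T.card), ← E_total_infl_restr h0 h1,
    div_eq_mul_inv, ← E_mul_const]
  refine E_mono h0.le h1.le fun z => ?_
  rw [← div_eq_mul_inv]
  refine kkl h0 h1 _ (fun y => hF01 _) hs fun e => ?_
  refine le_trans ?_ (small_infl h0 h1 hinj hcard hact F hF U z e)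
  exact mul_le_mul_of_nonneg_right hsU (infl_nonneg h0.le h1.le _ e)

end sym

section count

lemma card_contain_one (u : V) {m : ℕ} (hm : 1 ≤ m) :
    ((univ.powersetCard m).filter (fun U : Finset V => u ∈ U)).card
      = (Fintype.card V - 1).choose (m - 1) := by
  have := Finset.card_filter_powersetCard_subset ({u} : Finset V) univ m (Finset.subset_univ _)
    (by simpa using hm)
  simpa using this

lemma card_contain_two {u w : V} (huw : u ≠ w) {m : ℕ} (hm : 2 ≤ m) :
    ((univ.powersetCard m).filter (fun U : Finset V => u ∈ U ∧ w ∈ U)).card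
      = (Fintype.card V - 2).choose (m - 2) := by
  have hc : ({u, w} : Finset V).card = 2 := Finset.card_pair huw
  have := Finset.card_filter_powersetCard_subset ({u, w} : Finset V) univ m (Finset.subset_univ _)
    (by rw [hc]; exact hm)
  rw [hc] at this
  simpa [Finset.insert_subset_iff] using this

omit [DecidableEq ι] in
lemma count_touch {vs : ι → Finset V} {r : ℕ} (hcard : ∀ e, (vs e).card = r) (e : ι) {m : ℕ}
    (hm : 1 ≤ m) [DecidableEq ι] :
    ((univ.powersetCard m).filter (fun U : Finset V => e ∈ touch vs U)).card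
      ≤ r * (Fintype.card V - 1).choose (m - 1) := by
  have hsub : (univ.powersetCard m).filter (fun U : Finset V => e ∈ touch vs U) ⊆
      (vs e).biUnion fun u => (univ.powersetCard m).filter (fun U : Finset V => u ∈ U) := by
    intro U hU
    obtain ⟨h1, h2⟩ := Finset.mem_filter.1 hU
    obtain ⟨u, hu, hue⟩ := mem_touch.1 h2
    exact Finset.mem_biUnion.2 ⟨u, hue, Finset.mem_filter.2 ⟨h1, hu⟩⟩
  refine (Finset.card_le_card hsub).trans (Finset.card_biUnion_le.trans ?_)
  simp only [card_contain_one _ hm, Finset.sum_const, hcard, smul_eq_mul, le_refl]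

lemma count_good (W : Finset V) (u : V) {m : ℕ} (hm : 2 ≤ m)
    (hW : 2 * W.card * m ≤ Fintype.card V - 1) (hn : 2 ≤ Fintype.card V) :
    (Fintype.card V - 1).choose (m - 1) ≤
      2 * ((univ.powersetCard m).filter
        (fun U : Finset V => u ∈ U ∧ ∀ w ∈ W, w ∈ U → w = u)).card := by
  set G := (univ.powersetCard m).filter (fun U : Finset V => u ∈ U ∧ ∀ w ∈ W, w ∈ U → w = u)
  have hsub : (univ.powersetCard m).filter (fun U : Finset V => u ∈ U) ⊆
      G ∪ (W.erase u).biUnion
        fun w => (univ.powersetCard m).filter (fun U : Finset V => u ∈ U ∧ w ∈ U) := by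
    intro U hU
    obtain ⟨h1, h2⟩ := Finset.mem_filter.1 hU
    by_cases h : ∀ w ∈ W, w ∈ U → w = u
    · exact Finset.mem_union_left _ (Finset.mem_filter.2 ⟨h1, h2, h⟩)
    · push Not at h
      obtain ⟨w, hw, hwU, hwu⟩ := h
      exact Finset.mem_union_right _ (Finset.mem_biUnion.2
        ⟨w, Finset.mem_erase.2 ⟨hwu, hw⟩, Finset.mem_filter.2 ⟨h1, h2, hwU⟩⟩)
  have h1 := Finset.card_le_card hsub
  rw [card_contain_one u (by omega)] at h1
  have h2 : ((W.erase u).biUnion
        fun w => (univ.powersetCard m).filter (fun U : Finset V => u ∈ U ∧ w ∈ U)).card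
        ≤ W.card * (Fintype.card V - 2).choose (m - 2) := by
    refine Finset.card_biUnion_le.trans ?_
    rw [Finset.sum_congr rfl (fun w hw => card_contain_two (Finset.ne_of_mem_erase hw).symm hm),
      Finset.sum_const, smul_eq_mul]
    exact Nat.mul_le_mul_right _ Finset.card_erase_le
  have h3 := (h1.trans (Finset.card_union_le _ _)).trans (Nat.add_le_add_left h2 _)
  set n := Fintype.card V
  obtain ⟨n', hn'⟩ : ∃ n', n = n' + 2 := ⟨n - 2, by omega⟩
  obtain ⟨m', hm'⟩ : ∃ m', m = m' + 2 := ⟨m - 2, by omega⟩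
  rw [hn', hm'] at h3 hW ⊢
  simp only [Nat.add_sub_cancel, show n' + 2 - 1 = n' + 1 by omega,
    show m' + 2 - 1 = m' + 1 by omega] at h3 hW ⊢
  have h4 := Nat.add_one_mul_choose_eq n' m'
  set A := (n' + 1).choose (m' + 1)
  set B := n'.choose m'
  have h5 : (n' + 1) * (2 * (W.card * B)) ≤ (n' + 1) * A := by
    calc (n' + 1) * (2 * (W.card * B)) = 2 * W.card * ((n' + 1) * B) := by ring
      _ = 2 * W.card * (m' + 1) * A := by rw [h4]; ring
      _ ≤ 2 * W.card * (m' + 2) * A := by gcongr; omega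
      _ ≤ (n' + 1) * A := Nat.mul_le_mul_right _ hW
  have h6 := Nat.le_of_mul_le_mul_left h5 (Nat.succ_pos _)
  omega

omit [Fintype ι] [DecidableEq ι] [Fintype V] in
/-- a small non-empty family of `r`-sets has a covered vertex of small degree -/
lemma exists_low_degree {vs : ι → Finset V} {r : ℕ} (hinj : Function.Injective vs)
    (hcard : ∀ e, (vs e).card = r) (hr : 1 ≤ r) (S : Finset ι) (hS : S.Nonempty) (k : ℕ)
    (hk : (r * S.card) ^ (r - 1) < k ^ r) :
    ∃ u ∈ S.biUnion vs, (S.filter fun e => u ∈ vs e).card ≤ k := by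
  by_contra hc
  push Not at hc
  set W := S.biUnion vs with hW
  have hdc : ∑ u ∈ W, (S.filter fun e => u ∈ vs e).card = r * S.card := by
    simp only [Finset.card_filter]
    rw [Finset.sum_comm, mul_comm, ← smul_eq_mul, ← Finset.sum_const]
    refine Finset.sum_congr rfl fun e he => ?_
    rw [← Finset.card_filter, ← hcard e]
    congr 1
    ext u
    simp only [Finset.mem_filter, and_iff_right_iff_imp]
    exact fun hu => Finset.mem_biUnion.2 ⟨e, he, hu⟩
  have h1 : W.card * k ≤ r * S.card := by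
    rw [← hdc, ← smul_eq_mul, ← Finset.sum_const]
    exact Finset.sum_le_sum fun u hu => (hc u hu).le
  obtain ⟨e, he⟩ := hS
  obtain ⟨u, hu⟩ : (vs e).Nonempty := Finset.card_pos.1 (by rw [hcard]; omega)
  have huW : u ∈ W := Finset.mem_biUnion.2 ⟨e, he, hu⟩
  have h2 : (S.filter fun e => u ∈ vs e).card ≤ (W.powersetCard (r - 1)).card := by
    refine Finset.card_le_card_of_injOn (fun e => (vs e).erase u) ?_ ?_
    · intro e' he'
      simp only [Finset.coe_filter, Set.mem_ofPred_eq] at he'
      simp only [Finset.mem_coe, Finset.mem_powersetCard]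
      refine ⟨fun w hw => Finset.mem_biUnion.2 ⟨e', he'.1, Finset.mem_of_mem_erase hw⟩, ?_⟩
      rw [Finset.card_erase_of_mem he'.2, hcard]
    · intro a ha b hb hab
      simp only [Finset.coe_filter, Set.mem_ofPred_eq] at ha hb
      apply hinj
      simp only at hab
      rw [← Finset.insert_erase ha.2, ← Finset.insert_erase hb.2, hab]
  rw [Finset.card_powersetCard] at h2
  have h3 : k ≤ W.card ^ (r - 1) :=
    ((hc u huW).le.trans h2).trans (Nat.choose_le_pow _ _)
  have h4 : k ^ r ≤ (r * S.card) ^ (r - 1) := by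
    calc k ^ r = k * k ^ (r - 1) := by
          rw [← pow_succ']; congr 1; omega
      _ ≤ W.card ^ (r - 1) * k ^ (r - 1) := Nat.mul_le_mul_right _ h3
      _ = (W.card * k) ^ (r - 1) := by rw [mul_pow]
      _ ≤ _ := Nat.pow_le_pow_left h1 _
  omega

end count

/-- The core inequality, with free parameters. -/
theorem core (h0 : 0 < p) (h1 : p < 1) {vs : ι → Finset V} {act : Equiv.Perm V → Equiv.Perm ι}
    {r : ℕ} (hr : 2 ≤ r) (hinj : Function.Injective vs)
    (hcard : ∀ e, (vs e).card = r) (hact : ∀ σ e, vs (act σ e) = (vs e).image σ)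
    (F : (ι → Bool) → ℝ) (hF01 : ∀ x, F x = 0 ∨ F x = 1) (hF : ∀ σ x, F (x ∘ act σ) = F x)
    (k m : ℕ) (s Dg : ℝ) (hs : 0 < s) (hsm : s ^ 3 ≤ (m : ℝ) - r) (hD : 0 < Dg)
    (hDk : (r * Dg) ^ (r - 1) ≤ (k : ℝ) ^ r) (hmn : m ≤ Fintype.card V)
    (hDm : 2 * (r * Dg) * m ≤ (Fintype.card V : ℝ) - 1) :
    E p F * (1 - E p F) ≤
      (sig p ^ 2 / Dg + 2 * r / s * (2 / sig p) ^ (k - 1)) * ∑ e, infl p F e := by
  have hsg := sig_pos h0 h1
  set I := ∑ e, infl p F e with hI
  set n := Fintype.card V with hn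
  have hrm : r < m := by
    have : (0 : ℝ) < s ^ 3 := by positivity
    have h2 : (r : ℝ) < m := by linarith
    exact_mod_cast h2
  have hm2 : 2 ≤ m := by omega
  have hvar : E p F * (1 - E p F) = ∑ S ∈ univ.erase ∅, coef p F S ^ 2 := by
    rw [← var_eq h0 h1]
    have : E p (fun x => F x ^ 2) = E p F :=
      E_congr fun x => by rcases hF01 x with a | a <;> rw [a] <;> norm_num
    rw [this]; ring
  set Low : Finset (Finset ι) := (univ.erase ∅).filter fun S => (S.card : ℝ) < Dg with hLow
  -- the high part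
  have hhigh : ∑ S ∈ (univ.erase ∅).filter (fun S : Finset ι => ¬ (S.card : ℝ) < Dg),
      coef p F S ^ 2 ≤ sig p ^ 2 / Dg * I := by
    rw [div_mul_eq_mul_div, ← sum_card_coef_sq h0 h1, Finset.sum_div]
    calc _ ≤ ∑ S ∈ (univ.erase ∅).filter (fun S : Finset ι => ¬ (S.card : ℝ) < Dg),
          (S.card : ℝ) * coef p F S ^ 2 / Dg := by
          refine Finset.sum_le_sum fun S hS => ?_
          have h2 := not_lt.1 (Finset.mem_filter.1 hS).2
          rw [le_div_iff₀ hD, mul_comm]
          exact mul_le_mul_of_nonneg_right h2 (sq_nonneg _)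
      _ ≤ _ := Finset.sum_le_sum_of_subset_of_nonneg (Finset.subset_univ _)
          fun S _ _ => by positivity
  -- the low part
  set C : ℕ := (n - 1).choose (m - 1) with hC
  have hCpos : (0 : ℝ) < C := by
    have : 0 < C := Nat.choose_pos (by omega)
    exact_mod_cast this
  set 𝒰 := (univ : Finset V).powersetCard m with h𝒰
  have hsumU : ∑ U ∈ 𝒰, ∑ S : Finset ι, wt p (S ∩ touch vs U).card * coef p F S ^ 2
      ≤ r * C * I / s := by
    calc _ ≤ ∑ U ∈ 𝒰, (∑ e ∈ touch vs U, infl p F e) / s := by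
          refine Finset.sum_le_sum fun U hU => ?_
          refine per_set h0 h1 hinj hcard hact F hF01 hF U hs ?_
          rw [(Finset.mem_powersetCard.1 hU).2]; exact hsm
      _ = (∑ e, ((𝒰.filter (fun U : Finset V => e ∈ touch vs U)).card : ℝ) * infl p F e) / s := by
          rw [← Finset.sum_div]
          congr 1
          have : ∀ U, ∑ e ∈ touch vs U, infl p F e =
              ∑ e, if e ∈ touch vs U then infl p F e else 0 := fun U => by
            rw [Finset.sum_ite_mem]; simp
          simp only [this]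
          rw [Finset.sum_comm]
          refine Finset.sum_congr rfl fun e _ => ?_
          rw [← Finset.sum_filter, Finset.sum_const, nsmul_eq_mul]
      _ ≤ r * C * I / s := by
          refine div_le_div_of_nonneg_right ?_ hs.le
          rw [hI, Finset.mul_sum]
          refine Finset.sum_le_sum fun e _ => ?_
          refine mul_le_mul_of_nonneg_right ?_ (infl_nonneg h0.le h1.le F e)
          have := count_touch hcard e (m := m) (by omega)
          exact_mod_cast this
  have hlowS : ∀ S ∈ Low, (sig p / 2) ^ (k - 1) * (C / 2) ≤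
      ∑ U ∈ 𝒰, wt p (S ∩ touch vs U).card := by
    intro S hS
    obtain ⟨hS1, hS2⟩ := Finset.mem_filter.1 hS
    have hSne : S.Nonempty := Finset.nonempty_iff_ne_empty.2 (Finset.ne_of_mem_erase hS1)
    have hrpos : (0 : ℝ) < r := by exact_mod_cast (by omega : 0 < r)
    have hlt : (r : ℝ) * S.card < r * Dg := mul_lt_mul_of_pos_left hS2 hrpos
    have hk : (r * S.card) ^ (r - 1) < k ^ r := by
      have : ((r : ℝ) * S.card) ^ (r - 1) < (k : ℝ) ^ r :=
        lt_of_lt_of_le (pow_lt_pow_left₀ hlt (by positivity) (by omega)) hDk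
      exact_mod_cast this
    obtain ⟨u, huW, hdeg⟩ := exists_low_degree hinj hcard (by omega) S hSne k hk
    set W := S.biUnion vs with hW
    have hWc : W.card ≤ r * S.card := by
      refine Finset.card_biUnion_le.trans ?_
      simp [hcard, mul_comm]
    have hWm : 2 * W.card * m ≤ n - 1 := by
      have a1 : (W.card : ℝ) ≤ r * Dg := by
        have : (W.card : ℝ) ≤ r * S.card := by exact_mod_cast hWc
        linarith
      have a2 : (2 : ℝ) * W.card * m ≤ (n : ℝ) - 1 := by
        refine le_trans ?_ hDm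
        gcongr
      have a3 : (2 : ℝ) * W.card * m + 1 ≤ (n : ℝ) := by linarith
      have a4 : 2 * W.card * m + 1 ≤ n := by exact_mod_cast a3
      omega
    have hg := count_good W u hm2 hWm (by omega)
    set G := 𝒰.filter (fun U : Finset V => u ∈ U ∧ ∀ w ∈ W, w ∈ U → w = u) with hG
    have hg' : (C : ℝ) / 2 ≤ G.card := by
      have : (C : ℝ) ≤ 2 * G.card := by exact_mod_cast hg
      linarith
    have hdeg1 : 1 ≤ (S.filter fun e => u ∈ vs e).card := by
      obtain ⟨e, he, hue⟩ := Finset.mem_biUnion.1 huW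
      exact Finset.card_pos.2 ⟨e, Finset.mem_filter.2 ⟨he, hue⟩⟩
    calc (sig p / 2) ^ (k - 1) * (C / 2) ≤ (sig p / 2) ^ (k - 1) * G.card :=
          mul_le_mul_of_nonneg_left hg' (by positivity)
      _ = ∑ U ∈ G, (sig p / 2) ^ (k - 1) := by rw [Finset.sum_const, nsmul_eq_mul, mul_comm]
      _ ≤ ∑ U ∈ G, wt p (S ∩ touch vs U).card := by
          refine Finset.sum_le_sum fun U hU => ?_
          obtain ⟨_, huU, hw⟩ := Finset.mem_filter.1 hU
          have : S ∩ touch vs U = S.filter fun e => u ∈ vs e := by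
            ext e
            simp only [Finset.mem_inter, Finset.mem_filter, mem_touch, and_congr_right_iff]
            intro he
            constructor
            · rintro ⟨w, hwU, hwe⟩
              rw [← hw w (Finset.mem_biUnion.2 ⟨e, he, hwe⟩) hwU]; exact hwe
            · exact fun h => ⟨u, huU, h⟩
          rw [this]
          exact wt_ge h0 h1 hdeg1 hdeg
      _ ≤ _ := Finset.sum_le_sum_of_subset_of_nonneg (Finset.filter_subset _ _)
          fun U _ _ => wt_nonneg h0 h1 _
  have hlow1 : (sig p / 2) ^ (k - 1) * (C / 2) * ∑ S ∈ Low, coef p F S ^ 2 ≤ r * C * I / s := by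
    refine le_trans ?_ hsumU
    rw [Finset.sum_comm, Finset.mul_sum]
    calc _ ≤ ∑ S ∈ Low, ∑ U ∈ 𝒰, wt p (S ∩ touch vs U).card * coef p F S ^ 2 := by
          refine Finset.sum_le_sum fun S hS => ?_
          rw [← Finset.sum_mul]
          exact mul_le_mul_of_nonneg_right (hlowS S hS) (sq_nonneg _)
      _ ≤ _ := Finset.sum_le_sum_of_subset_of_nonneg (Finset.subset_univ _)
          fun S _ _ => Finset.sum_nonneg fun U _ => mul_nonneg (wt_nonneg h0 h1 _) (sq_nonneg _)
  have hlow : ∑ S ∈ Low, coef p F S ^ 2 ≤ 2 * r / s * (2 / sig p) ^ (k - 1) * I := by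
    have hpos : 0 < (sig p / 2) ^ (k - 1) * ((C : ℝ) / 2) := by positivity
    refine le_of_mul_le_mul_left (hlow1.trans (le_of_eq ?_)) hpos
    have : (sig p / 2) ^ (k - 1) * (2 / sig p) ^ (k - 1) = 1 := by
      rw [← mul_pow, show sig p / 2 * (2 / sig p) = 1 by field_simp, one_pow]
    calc r * C * I / s = ((sig p / 2) ^ (k - 1) * (2 / sig p) ^ (k - 1)) * (r * C * I / s) := by
          rw [this, one_mul]
      _ = _ := by ring
  rw [hvar, ← Finset.sum_filter_add_sum_filter_not _ (fun S : Finset ι => (S.card : ℝ) < Dg)]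
  rw [add_mul, add_comm (sig p ^ 2 / Dg * I)]
  exact add_le_add hlow hhigh

end Crest.Agent.R56
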