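import Crest.Agent.R56.Main
import Crest.Prelude.Def_RandomGraph

/-!
# The graph case: symmetric indicator and integration of the differential inequality
-/

set_option autoImplicit false

namespace Crest.Agent.R56

open Finset Crest.FinProb Crest.Agent.Lib.BoolCube Crest.CombinatoricsR.RandomGraph

/-- the action of a vertex permutation on edge slots -/
def edgeAct {n : ℕ} (σ : Equiv.Perm (Fin n)) : Equiv.Perm (EdgeSlot n) where
  toFun e := ⟨e.1.map σ, by rw [Sym2.isDiag_map σ.injective]; exact e.2⟩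
  invFun e := ⟨e.1.map σ.symm, by rw [Sym2.isDiag_map σ.symm.injective]; exact e.2⟩
  left_inv e := Subtype.ext (by simp [Sym2.map_map])
  right_inv e := Subtype.ext (by simp [Sym2.map_map])

lemma graphOf_adj {n : ℕ} (ω : EdgeSlot n → Bool) (a b : Fin n) :
    (graphOf ω).Adj a b ↔ ∃ h : ¬ (s(a, b) : Sym2 (Fin n)).IsDiag, ω ⟨s(a, b), h⟩ = true := by
  unfold graphOf
  rw [SimpleGraph.fromEdgeSet_adj]
  constructor
  · exact fun h => h.1
  · rintro ⟨h, h2⟩
    exact ⟨⟨h, h2⟩, by simpa using h⟩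

lemma graphOf_comp {n : ℕ} (σ : Equiv.Perm (Fin n)) (ω : EdgeSlot n → Bool) :
    (graphOf (ω ∘ edgeAct σ)).map σ.toEmbedding = graphOf ω := by
  ext a b
  obtain ⟨a, rfl⟩ := σ.surjective a
  obtain ⟨b, rfl⟩ := σ.surjective b
  have h1 := SimpleGraph.map_adj_apply (G := graphOf (ω ∘ edgeAct σ)) (f := σ.toEmbedding)
    (a := a) (b := b)
  refine h1.trans ?_
  rw [graphOf_adj, graphOf_adj]
  constructor
  · rintro ⟨h, h2⟩
    exact ⟨by simpa using h, h2⟩
  · rintro ⟨h, h2⟩
    exact ⟨by simpa using h, h2⟩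

lemma graphOf_mono {n : ℕ} {ω ω' : EdgeSlot n → Bool} (h : ∀ e, ω e = true → ω' e = true) :
    graphOf ω ≤ graphOf ω' := by
  intro a b hab
  rw [graphOf_adj] at hab ⊢
  obtain ⟨h1, h2⟩ := hab
  exact ⟨h1, h _ h2⟩

lemma graphOf_true {n : ℕ} (G : SimpleGraph (Fin n)) : G ≤ graphOf (fun _ => true) := by
  intro a b hab
  rw [graphOf_adj]
  exact ⟨by simpa using hab.ne, rfl⟩

lemma graphOf_false {n : ℕ} (G : SimpleGraph (Fin n)) : graphOf (fun _ => false) ≤ G := by
  intro a b hab
  rw [graphOf_adj] at hab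
  simp at hab

variable {ι : Type*} [Fintype ι] [DecidableEq ι]

lemma E_at_zero (F : (ι → Bool) → ℝ) : E 0 F = F (fun _ => false) := by
  unfold E
  rw [Finset.sum_eq_single (fun _ => false)]
  · simp [bw_eq, w1]
  · intro x _ hx
    obtain ⟨i, hi⟩ : ∃ i, x i = true := by
      by_contra hc
      push Not at hc
      exact hx (funext fun i => by simpa using hc i)
    rw [bw_eq, Finset.prod_eq_zero (Finset.mem_univ i) (by simp [w1, hi]), zero_mul]
  · simp

lemma E_at_one (F : (ι → Bool) → ℝ) : E 1 F = F (fun _ => true) := by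
  unfold E
  rw [Finset.sum_eq_single (fun _ => true)]
  · simp [bw_eq, w1]
  · intro x _ hx
    obtain ⟨i, hi⟩ : ∃ i, x i = false := by
      by_contra hc
      push Not at hc
      exact hx (funext fun i => by simpa using hc i)
    rw [bw_eq, Finset.prod_eq_zero (Finset.mem_univ i) (by simp [w1, hi]), zero_mul]
  · simp

lemma E_pos {p : ℝ} (h0 : 0 < p) (h1 : p < 1) (F : (ι → Bool) → ℝ) (hF : ∀ x, 0 ≤ F x)
    (x₀ : ι → Bool) (hx : 0 < F x₀) : 0 < E p F :=
  Finset.sum_pos' (fun x _ => mul_nonneg (bw_pos h0 h1 x).le (hF x))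
    ⟨x₀, Finset.mem_univ _, mul_pos (bw_pos h0 h1 x₀) hx⟩

/-- integration of `μ (1 - μ) ≤ c μ'` -/
lemma logit_growth (μ μ' : ℝ → ℝ) (c : ℝ) (hc : 0 < c)
    (hd : ∀ t, 0 < t → t < 1 → HasDerivAt μ (μ' t) t)
    (hpos : ∀ t, 0 < t → t < 1 → 0 < μ t) (hlt : ∀ t, 0 < t → t < 1 → μ t < 1)
    (hineq : ∀ t, 0 < t → t < 1 → μ t * (1 - μ t) ≤ c * μ' t)
    {p q : ℝ} (hp : 0 < p) (hpq : p ≤ q) (hq : q < 1) :
    Real.log (μ p) - Real.log (1 - μ p) + (q - p) / c ≤ Real.log (μ q) - Real.log (1 - μ q) := by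
  let g : ℝ → ℝ := fun t => Real.log (μ t) - Real.log (1 - μ t) - t / c
  have hg : ∀ t, 0 < t → t < 1 →
      HasDerivAt g (μ' t / μ t - (-μ' t) / (1 - μ t) - 1 / c) t := by
    intro t a b
    have h1 := (hd t a b).log (hpos t a b).ne'
    have h2 := ((hd t a b).const_sub 1).log (by linarith [hlt t a b])
    exact (h1.sub h2).sub ((hasDerivAt_id t).div_const c)
  have hmono : MonotoneOn g (Set.Icc p q) := by
    refine monotoneOn_of_deriv_nonneg (convex_Icc p q) ?_ ?_ ?_
    · intro t ht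
      exact (hg t (by linarith [ht.1]) (by linarith [ht.2])).continuousAt.continuousWithinAt
    · intro t ht
      have ht' := interior_subset ht
      exact (hg t (by linarith [ht'.1]) (by linarith [ht'.2])).differentiableAt.differentiableWithinAt
    · intro t ht
      have ht' := interior_subset ht
      have a : 0 < t := by linarith [ht'.1]
      have b : t < 1 := by linarith [ht'.2]
      rw [(hg t a b).deriv]
      have u := hpos t a b
      have v : 0 < 1 - μ t := by linarith [hlt t a b]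
      have w := hineq t a b
      have : μ' t / μ t - -μ' t / (1 - μ t) - 1 / c
          = (c * μ' t - μ t * (1 - μ t)) / (c * (μ t * (1 - μ t))) := by
        field_simp; ring
      rw [this]
      exact div_nonneg (by linarith) (by positivity)
  have := hmono ⟨le_rfl, hpq⟩ ⟨hpq, le_rfl⟩ hpq
  simp only [g] at this
  rw [sub_div]
  linarith

end Crest.Agent.R56
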