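import Crest.Agent.R56.Core

/-!
# Choice of the parameters
-/

set_option autoImplicit false

namespace Crest.Agent.R56

open Finset Crest.FinProb Crest.Agent.Lib.BoolCube

variable {ι : Type*} [Fintype ι] [DecidableEq ι] {p : ℝ}

lemma poincare (h0 : 0 < p) (h1 : p < 1) (F : (ι → Bool) → ℝ) (hF01 : ∀ x, F x = 0 ∨ F x = 1) :
    E p F * (1 - E p F) ≤ ∑ e, infl p F e := by
  have hsg := sig_pos h0 h1
  have hh := sig_le_half h0 h1
  have hvar : E p F * (1 - E p F) = ∑ S ∈ univ.erase ∅, coef p F S ^ 2 := by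
    rw [← var_eq h0 h1]
    have : E p (fun x => F x ^ 2) = E p F :=
      E_congr fun x => by rcases hF01 x with a | a <;> rw [a] <;> norm_num
    rw [this]; ring
  have hI : 0 ≤ ∑ e, infl p F e := Finset.sum_nonneg fun e _ => infl_nonneg h0.le h1.le F e
  rw [hvar]
  calc _ ≤ ∑ S ∈ univ.erase (∅ : Finset ι), (S.card : ℝ) * coef p F S ^ 2 := by
        refine Finset.sum_le_sum fun S hS => ?_
        have : 1 ≤ S.card :=
          Finset.card_pos.2 (Finset.nonempty_iff_ne_empty.2 (Finset.ne_of_mem_erase hS))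
        have h2 : (1 : ℝ) ≤ S.card := by exact_mod_cast this
        nlinarith [sq_nonneg (coef p F S)]
    _ ≤ ∑ S : Finset ι, (S.card : ℝ) * coef p F S ^ 2 :=
        Finset.sum_le_sum_of_subset_of_nonneg (Finset.subset_univ _) fun S _ _ => by positivity
    _ = sig p ^ 2 * ∑ e, infl p F e := sum_card_coef_sq h0 h1 F
    _ ≤ _ := by
        have : sig p ^ 2 ≤ 1 := by nlinarith
        nlinarith

theorem main (h0 : 0 < p) (h1 : p < 1) {n : ℕ} (hn : 2 ≤ n) {vs : ι → Finset (Fin n)}
    {act : Equiv.Perm (Fin n) → Equiv.Perm ι}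
    {r : ℕ} (hr : 2 ≤ r) (hinj : Function.Injective vs)
    (hcard : ∀ e, (vs e).card = r) (hact : ∀ σ e, vs (act σ e) = (vs e).image σ)
    (F : (ι → Bool) → ℝ) (hF01 : ∀ x, F x = 0 ∨ F x = 1) (hF : ∀ σ x, F (x ∘ act σ) = F x) :
    E p F * (1 - E p F) ≤
      (512 * r + (256 + r) ^ 2) / Real.log n ^ ((r : ℝ) / ((r : ℝ) - 1)) * ∑ e, infl p F e := by
  have hsg := sig_pos h0 h1
  have hh := sig_le_half h0 h1
  set I := ∑ e, infl p F e with hI
  have hI0 : 0 ≤ I := Finset.sum_nonneg fun e _ => infl_nonneg h0.le h1.le F e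
  set L := Real.log n with hL
  set a : ℝ := (r : ℝ) / ((r : ℝ) - 1) with ha
  have hr2 : (2 : ℝ) ≤ r := by exact_mod_cast hr
  have hn2 : (2 : ℝ) ≤ n := by exact_mod_cast hn
  have hLpos : 0 < L := Real.log_pos (by linarith)
  have ha0 : 0 ≤ a := div_nonneg (by linarith) (by linarith)
  have ha2 : a ≤ 2 := by rw [ha, div_le_iff₀ (by linarith)]; linarith
  have hLa : 0 < L ^ a := Real.rpow_pos_of_pos hLpos a
  have hpow2 : ∀ x : ℝ, 1 ≤ x → x ^ a ≤ x ^ 2 := fun x hx => by
    have := Real.rpow_le_rpow_of_exponent_le hx ha2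
    rwa [Real.rpow_two] at this
  rcases le_or_gt L (256 + r) with hsmall | hbig
  · have e1 : L ^ a ≤ (256 + (r : ℝ)) ^ 2 :=
      (Real.rpow_le_rpow hLpos.le hsmall ha0).trans (hpow2 _ (by linarith))
    have e2 : 1 ≤ (512 * (r : ℝ) + (256 + r) ^ 2) / L ^ a := by
      rw [le_div_iff₀ hLa]; nlinarith
    calc _ ≤ I := poincare h0 h1 F hF01
      _ = 1 * I := (one_mul _).symm
      _ ≤ _ := mul_le_mul_of_nonneg_right e2 hI0
  · set lam := Real.log (2 / sig p) with hlam
    have h2s : 4 ≤ 2 / sig p := by rw [le_div_iff₀ hsg]; linarith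
    have hlam1 : 1 ≤ lam := by
      rw [hlam, Real.le_log_iff_exp_le (by positivity)]
      have := Real.exp_one_lt_d9
      linarith
    have hlam2 : sig p * lam ≤ 2 := by
      have := Real.log_le_sub_one_of_pos (x := 2 / sig p) (by positivity)
      have h3 : sig p * lam ≤ sig p * (2 / sig p - 1) := mul_le_mul_of_nonneg_left this hsg.le
      have h4 : sig p * (2 / sig p - 1) = 2 - sig p := by field_simp
      linarith
    set k : ℕ := ⌊L / (8 * lam)⌋₊ + 1 with hk
    have hk1 : L / (8 * lam) ≤ k := by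
      rw [hk]; push_cast; exact (Nat.lt_floor_add_one _).le
    have hk2 : ((k - 1 : ℕ) : ℝ) ≤ L / (8 * lam) := by
      rw [hk, Nat.add_sub_cancel]; exact Nat.floor_le (by positivity)
    have hk3 : (1 : ℝ) ≤ k := by rw [hk]; push_cast; linarith [Nat.cast_nonneg (α := ℝ) ⌊L / (8 * lam)⌋₊]
    have hk4 : (k : ℝ) ≤ L := by
      have b1 : L / (8 * lam) ≤ L / 8 := div_le_div_of_nonneg_left hLpos.le (by norm_num) (by linarith)
      have b2 : (k : ℝ) = ((k - 1 : ℕ) : ℝ) + 1 := by rw [hk]; push_cast; simp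
      linarith
    have hka : 0 < (k : ℝ) ^ a := Real.rpow_pos_of_pos (by linarith) a
    have hka1 : 1 ≤ (k : ℝ) ^ a := Real.one_le_rpow hk3 ha0
    have hkaL : (k : ℝ) ^ a ≤ L ^ 2 :=
      (hpow2 _ hk3).trans (pow_le_pow_left₀ (by linarith) hk4 2)
    set m : ℕ := ⌈Real.exp (3 * L / 4)⌉₊ + r with hm
    have hexpL : Real.exp L = n := Real.exp_log (by linarith)
    have hX : L ≤ Real.exp (3 * L / 4) := by
      have := Real.pow_div_factorial_le_exp (3 * L / 4) (by positivity) 2
      simp only [Nat.factorial, Nat.succ_eq_add_one, Nat.cast_ofNat, Nat.reduceAdd,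
        Nat.reduceMul, zero_add, mul_one] at this
      nlinarith
    have hm1 : Real.exp (3 * L / 4) ≤ (m : ℝ) - r := by
      rw [hm]; push_cast; linarith [Nat.le_ceil (Real.exp (3 * L / 4))]
    have hm2 : (m : ℝ) ≤ 3 * Real.exp (3 * L / 4) := by
      rw [hm]; push_cast
      have := Nat.ceil_lt_add_one (Real.exp_pos (3 * L / 4)).le
      linarith
    have hY : 7 * L ^ 2 ≤ Real.exp (L / 4) := by
      have := Real.pow_div_factorial_le_exp (L / 4) (by positivity) 4
      simp only [Nat.factorial, Nat.succ_eq_add_one, Nat.cast_ofNat, Nat.reduceAdd,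
        Nat.reduceMul, zero_add, mul_one] at this
      have h5 : 256 ^ 2 ≤ L ^ 2 := pow_le_pow_left₀ (by norm_num) (by linarith) 2
      have h6 : (L / 4) ^ 4 / 24 = L ^ 2 * L ^ 2 / 6144 := by ring
      nlinarith
    have hsplit : Real.exp (3 * L / 4) * Real.exp (L / 4) = n := by
      rw [← Real.exp_add, ← hexpL]; congr 1; ring
    have hL1 : 1 ≤ L ^ 2 := by nlinarith
    have hDm0 : 2 * (k : ℝ) ^ a * m ≤ (n : ℝ) - 1 := by
      have c1 : 2 * (k : ℝ) ^ a * m ≤ 2 * L ^ 2 * (3 * Real.exp (3 * L / 4)) := by gcongr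
      have c2 : Real.exp (3 * L / 4) * (7 * L ^ 2) ≤ n := by
        rw [← hsplit]; exact mul_le_mul_of_nonneg_left hY (Real.exp_pos _).le
      have c3 : 1 ≤ Real.exp (3 * L / 4) * L ^ 2 := by nlinarith
      nlinarith
    have hrD : (r : ℝ) * ((k : ℝ) ^ a / r) = (k : ℝ) ^ a := by field_simp
    have hmn : m ≤ Fintype.card (Fin n) := by
      rw [Fintype.card_fin]
      have : (m : ℝ) ≤ n := by nlinarith [Nat.cast_nonneg (α := ℝ) m]
      exact_mod_cast this
    have hcore := core h0 h1 hr hinj hcard hact F hF01 hF k m (Real.exp (L / 4))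
      ((k : ℝ) ^ a / r) (Real.exp_pos _)
      (by rw [← Real.exp_nat_mul]; refine le_trans (le_of_eq ?_) hm1; congr 1; push_cast; ring)
      (by positivity)
      (by
        rw [hrD, ← Real.rpow_natCast, ← Real.rpow_mul (by linarith), ← Real.rpow_natCast]
        apply le_of_eq
        congr 1
        rw [Nat.cast_sub (by omega), ha]
        have : (r : ℝ) - 1 ≠ 0 := by linarith
        push_cast
        field_simp)
      hmn (by rw [hrD, Fintype.card_fin]; exact hDm0)
    refine hcore.trans (mul_le_mul_of_nonneg_right ?_ hI0)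
    have t1 : sig p ^ 2 / ((k : ℝ) ^ a / r) ≤ 256 * r / L ^ a := by
      have d1 : L ≤ k * (8 * lam) := by rwa [div_le_iff₀ (by positivity)] at hk1
      have d2 : L ^ a ≤ (k : ℝ) ^ a * (8 * lam) ^ 2 := by
        calc L ^ a ≤ ((k : ℝ) * (8 * lam)) ^ a := Real.rpow_le_rpow hLpos.le d1 ha0
          _ = (k : ℝ) ^ a * (8 * lam) ^ a := Real.mul_rpow (by linarith) (by linarith)
          _ ≤ _ := mul_le_mul_of_nonneg_left (hpow2 _ (by linarith)) hka.le
      have d3 : (sig p * lam) ^ 2 ≤ 2 ^ 2 := pow_le_pow_left₀ (by positivity) hlam2 2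
      rw [div_div_eq_mul_div, div_le_div_iff₀ hka hLa]
      calc sig p ^ 2 * r * L ^ a ≤ sig p ^ 2 * r * ((k : ℝ) ^ a * (8 * lam) ^ 2) := by gcongr
        _ = 64 * (sig p * lam) ^ 2 * (r * (k : ℝ) ^ a) := by ring
        _ ≤ 64 * 2 ^ 2 * (r * (k : ℝ) ^ a) := by gcongr
        _ = _ := by ring
    have t2 : 2 * r / Real.exp (L / 4) * (2 / sig p) ^ (k - 1) ≤ 256 * r / L ^ a := by
      have d1 : (2 / sig p) ^ (k - 1) ≤ Real.exp (L / 8) := by
        rw [← Real.exp_log (x := 2 / sig p) (by positivity), ← Real.exp_nat_mul, ← hlam]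
        apply Real.exp_le_exp.2
        rw [le_div_iff₀ (by positivity)] at hk2
        linarith
      have d2 : L ^ 2 ≤ 128 * Real.exp (L / 8) := by
        have := Real.pow_div_factorial_le_exp (L / 8) (by positivity) 2
        simp only [Nat.factorial, Nat.succ_eq_add_one, Nat.cast_ofNat, Nat.reduceAdd,
          Nat.reduceMul, zero_add, mul_one] at this
        nlinarith
      have d3 : Real.exp (L / 4) = Real.exp (L / 8) * Real.exp (L / 8) := by
        rw [← Real.exp_add]; congr 1; ring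
      have d4 : L ^ a ≤ 128 * Real.exp (L / 8) := (hpow2 _ (by linarith)).trans d2
      have hE := Real.exp_pos (L / 8)
      calc _ ≤ 2 * r / Real.exp (L / 4) * Real.exp (L / 8) := by gcongr
        _ = 2 * r / Real.exp (L / 8) := by rw [d3]; field_simp
        _ ≤ 256 * r / L ^ a := by
            rw [div_le_div_iff₀ hE hLa]; nlinarith
    have t3 : 256 * (r : ℝ) / L ^ a + 256 * r / L ^ a ≤ (512 * r + (256 + r) ^ 2) / L ^ a := by
      rw [← add_div]
      refine div_le_div_of_nonneg_right ?_ hLa.le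
      nlinarith [sq_nonneg (256 + (r : ℝ))]
    linarith

end Crest.Agent.R56
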